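import Mathlib

namespace Vale.Agent.P147

open MeasureTheory Set

/-- Sequences that agree with `p` below `n`. -/
def cyl {α : Type*} (n : ℕ) (p : ℕ → α) : Set (ℕ → α) := {f | ∀ k < n, f k = p k}

/-- The family of all cylinders, together with the empty set. -/
def cyls (α : Type*) : Set (Set (ℕ → α)) := insert ∅ {s | ∃ n p, s = cyl n p}

theorem measurableSet_cyl {α : Type*} [MeasurableSpace α] [MeasurableSingletonClass α]
    (n : ℕ) (p : ℕ → α) : MeasurableSet (cyl n p) := by
  have : cyl n p = ⋂ k ∈ Finset.range n, (fun f : ℕ → α => f k) ⁻¹' {p k} := by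
    ext f; simp [cyl]
  rw [this]
  exact MeasurableSet.biInter (Finset.range n).countable_toSet fun k _ =>
    measurable_pi_apply k (measurableSet_singleton _)

theorem cyl_inter {α : Type*} {n m : ℕ} {p q : ℕ → α} (h : n ≤ m)
    (hne : (cyl n p ∩ cyl m q).Nonempty) : cyl n p ∩ cyl m q = cyl m q := by
  obtain ⟨f, hfp, hfq⟩ := hne
  refine inter_eq_right.2 fun g hg k hk => ?_
  rw [hg k (lt_of_lt_of_le hk h), ← hfq k (lt_of_lt_of_le hk h), hfp k hk]

theorem isPiSystem_cyls (α : Type*) : IsPiSystem (cyls α) := by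
  rintro s (rfl | ⟨n, p, rfl⟩) t (rfl | ⟨m, q, rfl⟩) hne
  · simp at hne
  · simp at hne
  · simp at hne
  · rcases le_total n m with h | h
    · exact Or.inr ⟨m, q, cyl_inter h hne⟩
    · rw [inter_comm] at hne ⊢
      exact Or.inr ⟨n, p, cyl_inter h hne⟩

theorem generateFrom_cyls (α : Type*) [MeasurableSpace α] [MeasurableSingletonClass α]
    [Countable α] :
    (MeasurableSpace.pi : MeasurableSpace (ℕ → α)) = MeasurableSpace.generateFrom (cyls α) := by
  refine le_antisymm ?_ (MeasurableSpace.generateFrom_le ?_)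
  · refine iSup_le fun k => ?_
    rintro _ ⟨B, -, rfl⟩
    rcases isEmpty_or_nonempty α with hα | ⟨⟨a⟩⟩
    · have : (fun f : ℕ → α => f k) ⁻¹' B = ∅ := by
        ext f; exact (hα.false (f 0)).elim
      rw [this]
      exact @MeasurableSet.empty _ (MeasurableSpace.generateFrom (cyls α))
    let e : (Fin (k + 1) → α) → (ℕ → α) := fun g i => if h : i < k + 1 then g ⟨i, h⟩ else a
    have : (fun f : ℕ → α => f k) ⁻¹' B =
        ⋃ g ∈ {g : Fin (k + 1) → α | g (Fin.last k) ∈ B}, cyl (k + 1) (e g) := by
      ext f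
      simp only [mem_preimage, mem_iUnion, exists_prop, mem_setOf_eq]
      constructor
      · intro hf
        exact ⟨fun i => f i, by simpa using hf, fun i hi => by simp only [e, dif_pos hi]⟩
      · rintro ⟨g, hg, hf⟩
        have := hf k (Nat.lt_succ_self k)
        simp only [e, Nat.lt_succ_self, dif_pos] at this
        rw [this]
        exact hg
    rw [this]
    exact MeasurableSet.biUnion (to_countable _) fun g _ =>
      MeasurableSpace.measurableSet_generateFrom (Or.inr ⟨k + 1, e g, rfl⟩)
  · rintro s (rfl | ⟨n, p, rfl⟩)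
    · exact MeasurableSet.empty
    · exact measurableSet_cyl n p

theorem ext_cyls {α : Type*} [MeasurableSpace α] [MeasurableSingletonClass α] [Countable α]
    [Nonempty α] {μ ν : Measure (ℕ → α)} [IsFiniteMeasure μ]
    (h : ∀ n p, μ (cyl n p) = ν (cyl n p)) : μ = ν := by
  refine ext_of_generate_finite (cyls α) (generateFrom_cyls α) (isPiSystem_cyls α) ?_ ?_
  · rintro s (rfl | ⟨n, p, rfl⟩)
    · simp
    · exact h n p
  · obtain ⟨a⟩ := ‹Nonempty α›
    have := h 0 (fun _ => a)
    simpa [cyl] using this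

end Vale.Agent.P147
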