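import Vale.Agent.P147.Select
import Vale.Agent.P147.Cylinders

namespace Vale.Agent.P147

open MeasureTheory Set

variable {d : ℕ}

/-- The path built from a start and a sequence of steps. -/
def path (x : Site d) (s : ℕ → Step d) (n : ℕ) : Site d :=
  x + ∑ k ∈ Finset.range n, stp (s k)

theorem path_zero (x : Site d) (s : ℕ → Step d) : path x s 0 = x := by simp [path]

theorem path_succ (x : Site d) (s : ℕ → Step d) (n : ℕ) :
    path x s (n + 1) = path x s n + stp (s n) := by
  simp [path, Finset.sum_range_succ, add_assoc]

theorem path_succ' (x : Site d) (s : ℕ → Step d) (n : ℕ) :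
    path x s (n + 1) = path (x + stp (s 0)) (fun k => s (k + 1)) n := by
  simp [path, Finset.sum_range_succ']
  abel

/-- Prepend a step. -/
def cons (e : Step d) (s : ℕ → Step d) : ℕ → Step d
  | 0 => e
  | n + 1 => s n

theorem path_cons (x : Site d) (e : Step d) (s : ℕ → Step d) (n : ℕ) :
    path x (cons e s) (n + 1) = path (x + stp e) s n :=
  path_succ' x (cons e s) n

theorem measurable_path (x : Site d) : Measurable (path x : (ℕ → Step d) → ℕ → Site d) := by
  refine measurable_pi_lambda _ fun n => ?_
  exact measurable_const.add (Finset.measurable_sum _ fun k _ =>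
    (Measurable.of_discrete (f := (stp : Step d → Site d))).comp (measurable_pi_apply k))

theorem measurable_cons (e : Step d) : Measurable (cons e : (ℕ → Step d) → ℕ → Step d) := by
  refine measurable_pi_lambda _ fun n => ?_
  cases n with
  | zero => exact measurable_const
  | succ k => exact measurable_pi_apply k

section
variable [NeZero d]

/-- The position driven by uniform variables. -/
noncomputable def pos (w : Env d) (x : Site d) (u : ℕ → ℝ) : ℕ → Site d
  | 0 => x
  | n + 1 => pos w x u n + stp (sel (w (pos w x u n), u n))

/-- The steps driven by uniform variables. -/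
noncomputable def stepSeq (w : Env d) (x : Site d) (u : ℕ → ℝ) (n : ℕ) : Step d :=
  sel (w (pos w x u n), u n)

theorem pos_eq_path (w : Env d) (x : Site d) (u : ℕ → ℝ) (n : ℕ) :
    pos w x u n = path x (stepSeq w x u) n := by
  induction n with
  | zero => simp [pos, path]
  | succ n ih => rw [path_succ, ← ih]; rfl

theorem pos_congr {w : Env d} {x : Site d} {u : ℕ → ℝ} {t : ℕ → Step d} {n : ℕ}
    (h : ∀ k < n, stepSeq w x u k = t k) : pos w x u n = path x t n := by
  rw [pos_eq_path, path, path]
  congr 1
  refine Finset.sum_congr rfl fun k hk => ?_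
  rw [h k (Finset.mem_range.1 hk)]

theorem stepSeq_preimage (w : Env d) (x : Site d) (n : ℕ) (t : ℕ → Step d) :
    stepSeq w x ⁻¹' cyl n t =
      Set.pi (Finset.range n : Set ℕ) (fun k => {v | sel (w (path x t k), v) = t k}) := by
  induction n with
  | zero => simp [cyl]
  | succ n ih =>
    ext u
    have ihu := Set.ext_iff.1 ih u
    simp only [mem_preimage, cyl, mem_ofPred_eq, Set.mem_pi, Finset.mem_coe, Finset.mem_range]
      at ihu ⊢
    constructor
    · intro h k hk
      have := h k hk
      rw [stepSeq, pos_congr (t := t) (fun i hi => h i (by omega))] at this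
      exact this
    · intro h
      have h' := ihu.2 (fun k hk => h k (by omega))
      intro k hk
      rcases Nat.lt_succ_iff_lt_or_eq.1 hk with hk' | rfl
      · exact h' k hk'
      · rw [stepSeq, pos_congr h']
        exact h k hk

/-- The law of the step sequence. -/
noncomputable def W (w : Env d) (x : Site d) : Measure (ℕ → Step d) :=
  (Measure.infinitePi fun _ : ℕ => unif).map (stepSeq w x)

theorem measurable_pos_joint (x : Site d) (n : ℕ) :
    Measurable fun wu : Env d × (ℕ → ℝ) => pos wu.1 x wu.2 n := by
  induction n with
  | zero => exact measurable_const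
  | succ n ih =>
    refine ih.add ((Measurable.of_discrete (f := (stp : Step d → Site d))).comp (measurable_sel.comp (Measurable.prodMk ?_ ?_)))
    · have hev : Measurable fun wy : Env d × Site d => wy.1 wy.2 :=
        measurable_from_prod_countable_left fun y => measurable_pi_apply y
      exact hev.comp (measurable_fst.prodMk ih)
    · exact (measurable_pi_apply n).comp measurable_snd

theorem measurable_stepSeq_joint (x : Site d) :
    Measurable fun wu : Env d × (ℕ → ℝ) => stepSeq wu.1 x wu.2 := by
  refine measurable_pi_lambda _ fun n => measurable_sel.comp (Measurable.prodMk ?_ ?_)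
  · have hev : Measurable fun wy : Env d × Site d => wy.1 wy.2 :=
      measurable_from_prod_countable_left fun y => measurable_pi_apply y
    exact hev.comp (measurable_fst.prodMk (measurable_pos_joint x n))
  · exact (measurable_pi_apply n).comp measurable_snd

theorem measurable_stepSeq (w : Env d) (x : Site d) : Measurable (stepSeq w x) :=
  Measurable.comp (g := fun wu : Env d × (ℕ → ℝ) => stepSeq wu.1 x wu.2) (f := fun u => (w, u))
    (measurable_stepSeq_joint x) measurable_prodMk_left

instance (w : Env d) (x : Site d) : IsProbabilityMeasure (W w x) :=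
  Measure.isProbabilityMeasure_map (measurable_stepSeq w x).aemeasurable

theorem measurable_W (x : Site d) {A : Set (ℕ → Step d)} (hA : MeasurableSet A) :
    Measurable fun w : Env d => W w x A := by
  have : (fun w : Env d => W w x A) = fun w => (Measure.infinitePi fun _ : ℕ => unif)
      (Prod.mk w ⁻¹' ((fun wu : Env d × (ℕ → ℝ) => stepSeq wu.1 x wu.2) ⁻¹' A)) := by
    funext w
    rw [W, Measure.map_apply (measurable_stepSeq w x) hA]
    rfl
  rw [this]
  exact measurable_measure_prodMk_left (measurable_stepSeq_joint x hA)

/-- The environment seen from `x`. -/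
def shiftEnv (x : Site d) (w : Env d) : Env d := fun y => w (x + y)

theorem stepSeq_shift (w : Env d) (x z : Site d) (u : ℕ → ℝ) :
    stepSeq w (x + z) u = stepSeq (shiftEnv x w) z u := by
  have hpos : ∀ n, pos w (x + z) u n = x + pos (shiftEnv x w) z u n := by
    intro n
    induction n with
    | zero => rfl
    | succ n ih => simp only [pos, shiftEnv, ih, add_assoc]
  funext n
  simp only [stepSeq, shiftEnv, hpos]

theorem W_shift (w : Env d) (x : Site d) : W w x = W (shiftEnv x w) 0 := by
  have : stepSeq w x = stepSeq (shiftEnv x w) 0 := by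
    funext u
    simpa using stepSeq_shift w x 0 u
  rw [W, W, this]

theorem W_cyl {w : Env d} (hw : IsEnv w) (x : Site d) (n : ℕ) (t : ℕ → Step d) :
    W w x (cyl n t) = ∏ k ∈ Finset.range n, ENNReal.ofReal (w (path x t k) (t k)) := by
  have hm : ∀ k, MeasurableSet {v : ℝ | sel (w (path x t k), v) = t k} := fun k =>
    (measurable_sel.comp measurable_prodMk_left) (measurableSet_singleton _)
  rw [W, Measure.map_apply (measurable_stepSeq w x) (measurableSet_cyl n t), stepSeq_preimage,
    Measure.infinitePi_pi _ (fun k _ => hm k)]
  exact Finset.prod_congr rfl fun k _ => unif_sel (hw.1 _) (hw.2 _) _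

theorem W_step {w : Env d} (hw : IsEnv w) (x : Site d) (e : Step d)
    {A : Set (ℕ → Step d)} (hA : MeasurableSet A) :
    W w x ({s | s 0 = e} ∩ (fun s k => s (k + 1)) ⁻¹' A) =
      ENNReal.ofReal (w x e) * W w (x + stp e) A := by
  have hT : Measurable fun (s : ℕ → Step d) (k : ℕ) => s (k + 1) :=
    measurable_pi_lambda _ fun k => measurable_pi_apply (k + 1)
  have key : ((W w x).restrict {s | s 0 = e}).map (fun s k => s (k + 1)) =
      ENNReal.ofReal (w x e) • W w (x + stp e) := by
    refine ext_cyls fun n p => ?_
    rw [Measure.map_apply hT (measurableSet_cyl n p),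
      Measure.restrict_apply (hT (measurableSet_cyl n p)), Measure.smul_apply, smul_eq_mul,
      W_cyl hw]
    have : (fun (s : ℕ → Step d) k => s (k + 1)) ⁻¹' cyl n p ∩ {s | s 0 = e} =
        cyl (n + 1) (cons e p) := by
      ext s
      simp only [mem_inter_iff, mem_preimage, cyl, mem_ofPred_eq]
      constructor
      · rintro ⟨h1, h2⟩ k hk
        cases k with
        | zero => exact h2
        | succ k => exact h1 k (by omega)
      · intro h
        exact ⟨fun k hk => h (k + 1) (by omega), h 0 (by omega)⟩
    rw [this, W_cyl hw, Finset.prod_range_succ', mul_comm]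
    congr 1
    · rw [path_zero]; rfl
    · refine Finset.prod_congr rfl fun k _ => ?_
      rw [path_cons]; rfl
  have := congrArg (fun m : Measure (ℕ → Step d) => m A) key
  rw [Measure.map_apply hT hA, Measure.restrict_apply (hT hA), Measure.smul_apply, smul_eq_mul,
    inter_comm] at this
  exact this

/-- Probability of an event on step sequences, as a real number. -/
noncomputable def prob (w : Env d) (x : Site d) (A : Set (ℕ → Step d)) : ℝ := (W w x).real A

theorem prob_nonneg (w : Env d) (x : Site d) (A : Set (ℕ → Step d)) : 0 ≤ prob w x A :=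
  measureReal_nonneg

theorem prob_le_one' (w : Env d) (x : Site d) (A : Set (ℕ → Step d)) : prob w x A ≤ 1 :=
  measureReal_le_one

/-- First step decomposition. -/
theorem prob_decomp {w : Env d} (hw : IsEnv w) (x : Site d) {B : Set (ℕ → Step d)}
    (hB : MeasurableSet B) :
    prob w x B = ∑ e, w x e * prob w (x + stp e) (cons e ⁻¹' B) := by
  have h1 : ∀ e : Step d, {s : ℕ → Step d | s 0 = e} ∩ B =
      {s | s 0 = e} ∩ (fun s k => s (k + 1)) ⁻¹' (cons e ⁻¹' B) := by
    intro e
    ext s
    simp only [mem_inter_iff, mem_preimage, mem_ofPred_eq]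
    refine and_congr_right fun he => ?_
    have : cons e (fun k => s (k + 1)) = s := by
      funext k; cases k with
      | zero => exact he.symm
      | succ k => rfl
    rw [this]
  have h2 : W w x B = ∑ e, W w x ({s : ℕ → Step d | s 0 = e} ∩ B) := by
    rw [← measure_biUnion_finset]
    · congr 1
      ext s; simp
    · intro e _ e' _ hne
      refine Set.disjoint_left.2 fun s hs hs' => hne ?_
      exact hs.1.symm.trans hs'.1
    · intro e _
      exact MeasurableSet.inter (measurable_pi_apply (X := fun _ : ℕ => Step d) 0 (measurableSet_singleton e)) hB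
  rw [prob, measureReal_def, h2, ENNReal.toReal_sum fun e _ => measure_ne_top _ _]
  refine Finset.sum_congr rfl fun e _ => ?_
  rw [h1, W_step hw x e (measurable_cons e hB), ENNReal.toReal_mul,
    ENNReal.toReal_ofReal (hw.1 x e)]
  rfl

/-- The quenched law on paths. -/
noncomputable def Q0 (w : Env d) (x : Site d) : Measure (ℕ → Site d) := (W w x).map (path x)

theorem stp_injective : Function.Injective (stp : Step d → Site d) := by
  rintro ⟨i, b⟩ ⟨j, b'⟩ h
  simp only [stp] at h
  have h1 := congrFun h i
  rw [Pi.single_eq_same] at h1
  by_cases hij : i = j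
  · subst hij
    rw [Pi.single_eq_same] at h1
    cases b <;> cases b' <;> simp_all
  · rw [Pi.single_eq_of_ne hij] at h1
    cases b <;> simp at h1

theorem trans_stp (w : Env d) (y : Site d) (e : Step d) : trans w y (y + stp e) = w y e := by
  classical
  rw [trans, Finset.sum_eq_single e]
  · simp
  · intro e' _ hne
    rw [if_neg fun h => hne (stp_injective (add_left_cancel h))]
  · simp

theorem trans_eq_zero (w : Env d) {y z : Site d} (h : ∀ e, y + stp e ≠ z) : trans w y z = 0 :=
  Finset.sum_eq_zero fun e _ => if_neg (h e)

theorem isQuenchedLaw_Q0 : IsQuenchedLaw (Q0 (d := d)) := by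
  intro w hw x
  refine ⟨Measure.isProbabilityMeasure_map (measurable_path x).aemeasurable, fun n p => ?_⟩
  have hset : {X : ℕ → Site d | ∀ k ≤ n, X k = p k} = cyl (n + 1) p := by
    ext X; simp [cyl, Nat.lt_succ_iff]
  rw [hset, Q0, Measure.map_apply (measurable_path x) (measurableSet_cyl _ _)]
  by_cases h0 : p 0 = x
  · by_cases hstep : ∀ k < n, ∃ e, p k + stp e = p (k + 1)
    · classical
      let t : ℕ → Step d := fun k => if h : k < n then Classical.choose (hstep k h) else (0, true)
      have ht : ∀ k < n, p k + stp (t k) = p (k + 1) := fun k hk => by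
        simp only [t, dif_pos hk]; exact Classical.choose_spec (hstep k hk)
      have hpt : ∀ k ≤ n, path x t k = p k := by
        intro k hk
        induction k with
        | zero => rw [path_zero, h0]
        | succ k ih => rw [path_succ, ih (by omega), ht k (by omega)]
      have : path x ⁻¹' cyl (n + 1) p = cyl n t := by
        ext s
        simp only [mem_preimage, cyl, mem_ofPred_eq]
        constructor
        · intro h k hk
          have h1 := h (k + 1) (by omega)
          rw [path_succ, h k (by omega), ← ht k hk] at h1
          exact stp_injective (add_left_cancel h1)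
        · intro h k hk
          rw [← hpt k (by omega)]
          simp only [path]
          congr 1
          exact Finset.sum_congr rfl fun i hi => by rw [h i (by simp at hi; omega)]
      have htr : ∀ y z, 0 ≤ trans w y z := fun y z => by
        refine Finset.sum_nonneg fun e _ => ?_
        split_ifs
        · exact hw.1 _ _
        · exact le_rfl
      rw [this, W_cyl hw, if_pos h0, one_mul,
        ENNReal.ofReal_prod_of_nonneg fun k _ => htr _ _]
      refine Finset.prod_congr rfl fun k hk => ?_
      rw [Finset.mem_range] at hk
      rw [hpt k hk.le, ← ht k hk, trans_stp]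
    · push Not at hstep
      obtain ⟨k, hk, hne⟩ := hstep
      have hz : ∏ i ∈ Finset.range n, trans w (p i) (p (i + 1)) = 0 :=
        Finset.prod_eq_zero (Finset.mem_range.2 hk) (trans_eq_zero w hne)
      have he : path x ⁻¹' cyl (n + 1) p = ∅ := by
        refine Set.eq_empty_iff_forall_notMem.2 fun s hs => ?_
        have h1 := hs (k + 1) (by omega)
        rw [path_succ, hs k (by omega)] at h1
        exact hne _ h1
      rw [he, hz]
      simp
  · have he : path x ⁻¹' cyl (n + 1) p = ∅ := by
      refine Set.eq_empty_iff_forall_notMem.2 fun s hs => h0 ?_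
      have := hs 0 (by omega)
      rw [path_zero] at this
      exact this.symm
    rw [he, if_neg h0]
    simp

theorem quenchedLaw_unique {Q : Env d → Site d → Measure (ℕ → Site d)} (hQ : IsQuenchedLaw Q)
    {w : Env d} (hw : IsEnv w) (x : Site d) : Q w x = Q0 w x := by
  obtain ⟨hp, hc⟩ := hQ w hw x
  obtain ⟨hp', hc'⟩ := isQuenchedLaw_Q0 w hw x
  refine ext_cyls fun n p => ?_
  cases n with
  | zero => simp [cyl]
  | succ n =>
    have hset : {X : ℕ → Site d | ∀ k ≤ n, X k = p k} = cyl (n + 1) p := by
      ext X; simp [cyl, Nat.lt_succ_iff]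
    rw [← hset, hc, hc']

end

end Vale.Agent.P147
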