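import Vale.Agent.P147.Main

namespace Vale.Agent.P147

open MeasureTheory

variable {d : ℕ} [NeZero d]

theorem stp_ne_zero (e : Step d) : stp e ≠ 0 := by
  intro h
  have h1 := congrFun h e.1
  obtain ⟨i, b⟩ := e
  cases b <;> simp [stp] at h1

theorem stp_flip (e : Step d) : stp (e.1, !e.2) = -stp e := by
  obtain ⟨i, b⟩ := e
  cases b <;> simp [stp, ← Pi.single_neg]

theorem stp_sub_ne {u v : Step d} (h : u.1 ≠ v.1) : stp u - stp v ≠ 0 := fun h0 =>
  h (congrArg Prod.fst (stp_injective (sub_eq_zero.1 h0)))

theorem freeAxis_zero_one (hd : 2 ≤ d) (μ : Measure (Step d → ℝ)) [IsProbabilityMeasure μ]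
    (hell : IsElliptic μ) (hax : FreeAxis μ) (l : Fin d → ℝ)
    {Q : Env d → Site d → Measure (ℕ → Site d)} (hQ : IsQuenchedLaw Q) :
    annealedEscape Q μ l = 0 ∨ annealedEscape Q μ l = 1 := by
  classical
  obtain ⟨i, q, hq⟩ := hax
  obtain ⟨i', hi'⟩ : ∃ j : Fin d, j ≠ i := by
    haveI : Nontrivial (Fin d) := Fin.nontrivial_iff_two_le.2 hd
    exact exists_ne i
  refine annealed_zero_one μ (stp_ne_zero (i, true)) l (T := {(i, true), (i, false)}) (κ := id)
    (q := fun c => if c.1 = i then 0 else q c) ?_ ?_ ?_ hQ
  · intro e he
    simp only [Finset.mem_insert, Finset.mem_singleton] at he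
    rcases he with rfl | rfl
    · exact Or.inl rfl
    · exact Or.inr (stp_flip (i, true))
  · rintro e e' _ _ rfl
    exact Or.inl rfl
  · filter_upwards [hell, hq] with p hp hpq
    beta_reduce
    have hmem : ∀ e : Step d, e ∈ ({(i, true), (i, false)} : Finset (Step d)) ↔ e.1 = i := by
      rintro ⟨j, b⟩; cases b <;> simp
    have hs : ∑ e ∈ Finset.univ \ ({(i, true), (i, false)} : Finset (Step d)), p e =
        1 - p (i, true) - p (i, false) := by
      rw [Finset.sum_sdiff_eq_sub (Finset.subset_univ _), hp.2, Finset.sum_pair (by simp)]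
      ring
    have hpos : 0 < ∑ e ∈ Finset.univ \ ({(i, true), (i, false)} : Finset (Step d)), p e :=
      Finset.sum_pos (fun e _ => hp.1 e) ⟨(i', true), by simp [hmem, hi']⟩
    refine ⟨fun e => (hp.1 e).le, hp.2, hpos, fun c => ?_⟩
    beta_reduce
    rw [hs]
    by_cases hc : c.1 = i
    · rw [if_pos hc, mul_zero]
      refine Finset.sum_eq_zero fun e he => ?_
      simp only [Finset.mem_filter, Finset.mem_sdiff, id_eq] at he
      exact absurd ((hmem e).2 (he.2 ▸ hc)) he.1.2
    · rw [if_neg hc, ← hpq c hc, Finset.sum_filter]
      simp only [id_eq]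
      rw [Finset.sum_ite_eq', if_pos]
      simp [hmem, hc]

theorem freeDiagonal_zero_one (μ : Measure (Step d → ℝ)) [IsProbabilityMeasure μ]
    (hell : IsElliptic μ) (hdg : FreeDiagonal μ) (l : Fin d → ℝ)
    {Q : Env d → Site d → Measure (ℕ → Site d)} (hQ : IsQuenchedLaw Q) :
    annealedEscape Q μ l = 0 ∨ annealedEscape Q μ l = 1 := by
  classical
  obtain ⟨u, v, c, c', r, huv, hr⟩ := hdg
  set u' : Step d := (u.1, !u.2) with hu'
  set v' : Step d := (v.1, !v.2) with hv'
  have hmem : ∀ e : Step d, e.1 = u.1 ∨ e.1 = v.1 ↔ e = u ∨ e = u' ∨ e = v ∨ e = v' := by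
    intro e
    constructor
    · rintro (h | h)
      · by_cases hb : e.2 = u.2
        · exact Or.inl (Prod.ext h hb)
        · exact Or.inr (Or.inl (Prod.ext h (by cases h1 : e.2 <;> cases h2 : u.2 <;> simp_all)))
      · by_cases hb : e.2 = v.2
        · exact Or.inr (Or.inr (Or.inl (Prod.ext h hb)))
        · exact Or.inr (Or.inr (Or.inr (Prod.ext h
            (by cases h1 : e.2 <;> cases h2 : v.2 <;> simp_all))))
    · rintro (rfl | rfl | rfl | rfl) <;> simp [hu', hv']
  have huu' : u ≠ u' := fun h => by have := congrArg Prod.snd h; simp [hu'] at this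
  have hvv' : v ≠ v' := fun h => by have := congrArg Prod.snd h; simp [hv'] at this
  have huv' : u ≠ v := fun h => huv (congrArg Prod.fst h)
  have huv'' : u ≠ v' := fun h => huv (by have h1 := congrArg Prod.fst h; simpa [hv'] using h1)
  have hu'v : u' ≠ v := fun h => huv (by have h1 := congrArg Prod.fst h; simpa [hu'] using h1)
  have hu'v' : u' ≠ v' := fun h => huv (by
    have h1 := congrArg Prod.fst h; simpa [hu', hv'] using h1)
  refine annealed_zero_one μ (stp_sub_ne huv) l (T := ∅)
    (κ := fun e => if e = v then u else if e = u' then v' else e)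
    (q := fun e => if e = u then c else if e = v' then c' else
      if e = v ∨ e = u' then 0 else r e) ?_ ?_ ?_ hQ
  · simp
  · intro e e' _ _ hk
    have hflip := stp_flip u
    have hflip' := stp_flip v
    rw [← hu'] at hflip
    rw [← hv'] at hflip'
    beta_reduce at hk
    by_cases h1 : e = v
    · rw [if_pos h1] at hk
      by_cases h3 : e' = v
      · exact Or.inl (by rw [h1, h3])
      · rw [if_neg h3] at hk
        by_cases h4 : e' = u'
        · rw [if_pos h4] at hk; exact absurd hk huv''
        · rw [if_neg h4] at hk
          exact Or.inr (Or.inl (by rw [h1, ← hk]; abel))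
    · rw [if_neg h1] at hk
      by_cases h2 : e = u'
      · rw [if_pos h2] at hk
        by_cases h3 : e' = v
        · rw [if_pos h3] at hk; exact absurd hk.symm huv''
        · rw [if_neg h3] at hk
          by_cases h4 : e' = u'
          · exact Or.inl (by rw [h2, h4])
          · rw [if_neg h4] at hk
            exact Or.inr (Or.inl (by rw [h2, ← hk, hflip, hflip']; abel))
      · rw [if_neg h2] at hk
        by_cases h3 : e' = v
        · rw [if_pos h3] at hk
          exact Or.inr (Or.inr (by rw [hk, h3]; abel))
        · rw [if_neg h3] at hk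
          by_cases h4 : e' = u'
          · rw [if_pos h4] at hk
            exact Or.inr (Or.inr (by rw [hk, h4, hflip, hflip']; abel))
          · rw [if_neg h4] at hk
            exact Or.inl (by rw [hk])
  · filter_upwards [hell, hr] with p hp hpr
    refine ⟨fun e => (hp.1 e).le, hp.2, by simp [hp.2], fun e0 => ?_⟩
    beta_reduce
    rw [Finset.sdiff_empty, hp.2, one_mul]
    by_cases h1 : e0 = u
    · subst h1
      rw [if_pos rfl]
      have : Finset.univ.filter (fun e => (if e = v then e0 else if e = u' then v' else e) = e0) =
          {e0, v} := by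
        ext e
        simp only [Finset.mem_filter, Finset.mem_univ, true_and, Finset.mem_insert,
          Finset.mem_singleton]
        split_ifs with ha hb
        · exact ⟨fun _ => Or.inr ha, fun _ => rfl⟩
        · refine ⟨fun h => absurd h.symm huv'', fun h => ?_⟩
          rcases h with h | h
          · exact absurd (h.symm.trans hb) huu'
          · exact absurd h ha
        · exact ⟨Or.inl, fun h => h.resolve_right ha⟩
      rw [this, Finset.sum_pair huv', hpr.1]
    · rw [if_neg h1]
      by_cases h2 : e0 = v'
      · subst h2
        rw [if_pos rfl]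
        have : Finset.univ.filter (fun e => (if e = v then u else if e = u' then v' else e) = v') =
            {u', v'} := by
          ext e
          simp only [Finset.mem_filter, Finset.mem_univ, true_and, Finset.mem_insert,
            Finset.mem_singleton]
          split_ifs with ha hb
          · refine ⟨fun h => absurd h huv'', fun h => ?_⟩
            rcases h with h | h
            · exact absurd (h.symm.trans ha) hu'v
            · exact absurd (ha.symm.trans h) hvv'
          · exact ⟨fun _ => Or.inl hb, fun _ => rfl⟩
          · exact ⟨Or.inr, fun h => h.resolve_left hb⟩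
        rw [this, Finset.sum_pair hu'v', hpr.2.1]
      · rw [if_neg h2]
        by_cases h3 : e0 = v ∨ e0 = u'
        · rw [if_pos h3]
          refine Finset.sum_eq_zero fun e he => ?_
          simp only [Finset.mem_filter, Finset.mem_univ, true_and] at he
          exfalso
          split_ifs at he with ha hb
          · exact h1 he.symm
          · exact h2 he.symm
          · subst he; exact h3.elim ha hb
        · rw [if_neg h3]
          rw [not_or] at h3
          have : Finset.univ.filter
              (fun e => (if e = v then u else if e = u' then v' else e) = e0) = {e0} := by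
            ext e
            simp only [Finset.mem_filter, Finset.mem_univ, true_and, Finset.mem_singleton]
            split_ifs with ha hb
            · exact ⟨fun h => absurd h.symm h1, fun h => absurd (h.symm.trans ha) h3.1⟩
            · exact ⟨fun h => absurd h.symm h2, fun h => absurd (h.symm.trans hb) h3.2⟩
            · exact Iff.rfl
          rw [this, Finset.sum_singleton]
          have hne : ¬ (e0.1 = u.1 ∨ e0.1 = v.1) := by
            rw [hmem]; tauto
          exact hpr.2.2 e0 (fun h => hne (Or.inl h)) (fun h => hne (Or.inr h))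

end Vale.Agent.P147
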