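import Mathlib

namespace Vale.Agent.P147

open MeasureTheory

/-- Sites of the lattice. -/
abbrev Site (d : ℕ) : Type := Fin d → ℤ

/-- The unit steps: `(i, true)` is `+e_i` and `(i, false)` is `-e_i`. -/
abbrev Step (d : ℕ) : Type := Fin d × Bool

/-- The vector of a unit step. -/
def stp {d : ℕ} (e : Step d) : Site d :=
  Pi.single e.1 (if e.2 then 1 else -1)

/-- Euclidean inner product of a lattice point with a real direction. -/
noncomputable def dot {d : ℕ} (l : Fin d → ℝ) (x : Site d) : ℝ :=
  ∑ i, l i * (x i : ℝ)

/-- An environment assigns a weight to each site and step. -/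
abbrev Env (d : ℕ) : Type := Site d → Step d → ℝ

/-- Transition probability from `y` to `z` in the environment `w`. -/
noncomputable def trans {d : ℕ} (w : Env d) (y z : Site d) : ℝ :=
  ∑ e : Step d, if y + stp e = z then w y e else 0

/-- Each row of the environment is a probability vector. -/
def IsEnv {d : ℕ} (w : Env d) : Prop :=
  (∀ x e, 0 ≤ w x e) ∧ ∀ x, ∑ e, w x e = 1

/-- `Q w x` is the quenched law of the Markov chain started at `x` in the environment `w`,
for every environment whose rows are probability vectors. -/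
def IsQuenchedLaw {d : ℕ} (Q : Env d → Site d → Measure (ℕ → Site d)) : Prop :=
  ∀ w : Env d, IsEnv w → ∀ x : Site d,
    IsProbabilityMeasure (Q w x) ∧
      ∀ (n : ℕ) (p : ℕ → Site d),
        Q w x {X | ∀ k ≤ n, X k = p k} =
          ENNReal.ofReal
            ((if p 0 = x then 1 else 0) * ∏ k ∈ Finset.range n, trans w (p k) (p (k + 1)))

/-- The event of escape in direction `l`. -/
def escape {d : ℕ} (l : Fin d → ℝ) : Set (ℕ → Site d) :=
  {X | Filter.Tendsto (fun n => dot l (X n)) Filter.atTop Filter.atTop}

/-- The annealed probability of escape in direction `l`, starting from the origin. -/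
noncomputable def annealedEscape {d : ℕ} (Q : Env d → Site d → Measure (ℕ → Site d))
    (μ : Measure (Step d → ℝ)) (l : Fin d → ℝ) : ENNReal :=
  ∫⁻ w, Q w 0 (escape l) ∂(Measure.infinitePi fun _ : Site d => μ)

/-- Almost every row is a probability vector with all entries positive. -/
def IsElliptic {d : ℕ} (μ : Measure (Step d → ℝ)) : Prop :=
  ∀ᵐ p ∂μ, (∀ e, 0 < p e) ∧ ∑ e, p e = 1

/-- Axis class: for some coordinate axis `i` the two entries along the axis are an arbitrary
random pair, and the other entries are a nonrandom vector times the remaining mass. -/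
def FreeAxis {d : ℕ} (μ : Measure (Step d → ℝ)) : Prop :=
  ∃ (i : Fin d) (q : Step d → ℝ), ∀ᵐ p ∂μ, ∀ e : Step d, e.1 ≠ i →
    p e = (1 - p (i, true) - p (i, false)) * q e

/-- Diagonal class: for two steps `u`, `v` on different axes the sums `p u + p v` and
`p (-u) + p (-v)` and all other entries are nonrandom. -/
def FreeDiagonal {d : ℕ} (μ : Measure (Step d → ℝ)) : Prop :=
  ∃ (u v : Step d) (c c' : ℝ) (r : Step d → ℝ), u.1 ≠ v.1 ∧ ∀ᵐ p ∂μ,
    p u + p v = c ∧ p (u.1, !u.2) + p (v.1, !v.2) = c' ∧
      ∀ e : Step d, e.1 ≠ u.1 → e.1 ≠ v.1 → p e = r e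

end Vale.Agent.P147
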