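import Vale.Agent.P147.Chain

namespace Vale.Agent.P147

open MeasureTheory ProbabilityTheory Set

variable {d : ℕ}

theorem measurable_shiftEnv (v : Site d) : Measurable (shiftEnv v : Env d → Env d) :=
  measurable_pi_lambda _ fun y => measurable_pi_apply (v + y)

theorem measurePreserving_shiftEnv (μ : Measure (Step d → ℝ)) [IsProbabilityMeasure μ]
    (v : Site d) :
    MeasurePreserving (shiftEnv v) (Measure.infinitePi fun _ : Site d => μ)
      (Measure.infinitePi fun _ : Site d => μ) := by
  classical
  refine ⟨measurable_shiftEnv v, Measure.eq_infinitePi _ fun s t ht => ?_⟩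
  rw [Measure.map_apply (measurable_shiftEnv v) (.pi s.countable_toSet fun i _ => ht i)]
  have : shiftEnv v ⁻¹' (Set.pi (s : Set (Site d)) t) =
      Set.pi ((s.image fun y => v + y : Finset (Site d)) : Set (Site d))
        (fun z => t (z - v)) := by
    ext w
    simp only [mem_preimage, Set.mem_pi, Finset.mem_coe, Finset.mem_image, shiftEnv,
      forall_exists_index, and_imp, forall_apply_eq_imp_iff₂, add_sub_cancel_left]
  rw [this, Measure.infinitePi_pi _ fun i _ => ht _,
    Finset.prod_image fun a _ b _ h => add_left_cancel h]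
  exact Finset.prod_congr rfl fun y _ => by rw [add_sub_cancel_left]

theorem shiftEnv_shiftEnv (a b : Site d) (w : Env d) :
    shiftEnv a (shiftEnv b w) = shiftEnv (b + a) w := by
  funext y; simp [shiftEnv, add_assoc]

theorem nsmul_ne {V : Site d} (hV : V ≠ 0) : Function.Injective fun k : ℕ => k • V := by
  intro a b h
  obtain ⟨i, hi⟩ := Function.ne_iff.1 hV
  have := congrFun h i
  simp only [Pi.smul_apply, nsmul_eq_mul] at this
  exact_mod_cast mul_right_cancel₀ hi this

theorem abs_real_sub_le {α : Type*} [MeasurableSpace α] (P : Measure α) [IsFiniteMeasure P]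
    (A B : Set α) : |P.real A - P.real B| ≤ P.real (symmDiff A B) := by
  have h1 : P.real A ≤ P.real B + P.real (symmDiff A B) :=
    le_trans (measureReal_mono fun x hx => by
      by_cases hb : x ∈ B
      · exact Or.inl hb
      · exact Or.inr (Or.inl ⟨hx, hb⟩)) (measureReal_union_le _ _)
  have h2 : P.real B ≤ P.real A + P.real (symmDiff A B) :=
    le_trans (measureReal_mono fun x hx => by
      by_cases ha : x ∈ A
      · exact Or.inl ha
      · exact Or.inr (Or.inr ⟨hx, ha⟩)) (measureReal_union_le _ _)
  rw [abs_le]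
  constructor <;> linarith

theorem ergodic_shiftEnv (μ : Measure (Step d → ℝ)) [IsProbabilityMeasure μ] {V : Site d}
    (hV : V ≠ 0) : Ergodic (shiftEnv V) (Measure.infinitePi fun _ : Site d => μ) := by
  classical
  set P := Measure.infinitePi fun _ : Site d => μ with hP
  refine ⟨measurePreserving_shiftEnv μ V, ⟨fun B hB hinv => ?_⟩⟩
  have hk : ∀ k : ℕ, shiftEnv (k • V) ⁻¹' B = B := by
    intro k
    induction k with
    | zero =>
      ext w
      have h0 : shiftEnv (0 : Site d) w = w := by funext y; simp [shiftEnv]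
      rw [mem_preimage, zero_nsmul, h0]
    | succ k ih =>
      ext w
      rw [mem_preimage, succ_nsmul, ← shiftEnv_shiftEnv]
      change shiftEnv (k • V) w ∈ shiftEnv V ⁻¹' B ↔ _
      rw [hinv]
      exact Set.ext_iff.1 ih w
  have hsmall : ∀ ε : ℝ, 0 < ε → |P.real B - P.real B * P.real B| ≤ 4 * ε := by
    intro ε hε
    obtain ⟨C, hC, hBC⟩ := (Measure.MeasureDense.of_generateFrom_isSetAlgebra_finite P
      isSetAlgebra_measurableCylinders generateFrom_measurableCylinders.symm).approx B hB
        (measure_ne_top _ _) ε hε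
    have hBC' : P.real (symmDiff B C) ≤ ε :=
      ENNReal.toReal_le_of_le_ofReal hε.le hBC.le
    obtain ⟨s, S, hS, rfl⟩ := (mem_measurableCylinders C).1 hC
    obtain ⟨k, hk'⟩ : ∃ k : ℕ, ∀ a ∈ s, k • V + a ∉ s := by
      have hfin : {k : ℕ | ∃ a ∈ s, k • V + a ∈ s}.Finite := by
        refine Set.Finite.subset (((s ×ˢ s).image fun ab => ab.2 - ab.1).finite_toSet.preimage
          (nsmul_ne hV).injOn) ?_
        rintro k ⟨a, ha, hb⟩
        simp only [mem_preimage, Finset.mem_coe, Finset.mem_image, Finset.mem_product]
        exact ⟨(a, k • V + a), ⟨ha, hb⟩, by simp⟩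
      obtain ⟨k, hk⟩ := hfin.exists_notMem
      exact ⟨k, fun a ha hb => hk ⟨a, ha, hb⟩⟩
    set s' := s.image fun y => k • V + y with hs'
    have hdisj : Disjoint s s' := Finset.disjoint_left.2 fun a ha ha' => by
      obtain ⟨b, hb, rfl⟩ := Finset.mem_image.1 ha'
      exact hk' b hb ha
    have hind := iIndepFun.indepFun_finset s s' hdisj
      (iIndepFun_infinitePi (P := fun _ : Site d => μ) (X := fun _ p => p) fun _ => measurable_id)
      (fun i => measurable_pi_apply i)
    let g : (↥s' → Step d → ℝ) → (↥s → Step d → ℝ) := fun v i =>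
      v ⟨k • V + i.1, Finset.mem_image_of_mem _ i.2⟩
    have hg : Measurable g := measurable_pi_lambda _ fun i => measurable_pi_apply _
    set C := cylinder (α := fun _ : Site d => Step d → ℝ) s S with hCdef
    set Ck := shiftEnv (k • V) ⁻¹' C with hCk
    have hCm : MeasurableSet C := hS.cylinder s
    have hmul : P (C ∩ Ck) = P C * P Ck :=
      (indepFun_iff_measure_inter_preimage_eq_mul.1 hind) S (g ⁻¹' S) hS (hg hS)
    have hCkP : P.real Ck = P.real C := by
      rw [measureReal_def, measureReal_def,
        (measurePreserving_shiftEnv μ (k • V)).measure_preimage hCm.nullMeasurableSet]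
    have hBCk : P.real (symmDiff B Ck) ≤ ε := by
      have : symmDiff B Ck = shiftEnv (k • V) ⁻¹' (symmDiff B C) := by
        rw [Set.preimage_symmDiff, hk k]
      rw [measureReal_def, this,
        (measurePreserving_shiftEnv μ (k • V)).measure_preimage
          (hB.symmDiff hCm).nullMeasurableSet]
      exact hBC'
    have h1 : |P.real B - P.real (C ∩ Ck)| ≤ 2 * ε := by
      refine le_trans (abs_real_sub_le P _ _) ?_
      refine le_trans (measureReal_mono (s₂ := symmDiff B C ∪ symmDiff B Ck) ?_) ?_
      · rintro x (⟨hx, hn⟩ | ⟨hx, hn⟩)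
        · by_cases hc : x ∈ C
          · exact Or.inr (Or.inl ⟨hx, fun h => hn ⟨hc, h⟩⟩)
          · exact Or.inl (Or.inl ⟨hx, hc⟩)
        · exact Or.inl (Or.inr ⟨hx.1, hn⟩)
      · exact le_trans (measureReal_union_le _ _) (by linarith)
    have h2 : P.real (C ∩ Ck) = P.real C * P.real C := by
      nth_rewrite 2 [← hCkP]
      simp only [measureReal_def, hmul, ENNReal.toReal_mul]
    have h3 := le_trans (abs_real_sub_le P B C) hBC'
    rw [h2, abs_le] at h1
    rw [abs_le] at h3 ⊢
    have := measureReal_nonneg (μ := P) (s := B)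
    have := measureReal_nonneg (μ := P) (s := C)
    have := measureReal_le_one (μ := P) (s := B)
    have := measureReal_le_one (μ := P) (s := C)
    constructor <;> nlinarith
  have hzero : P.real B - P.real B * P.real B = 0 := by
    by_contra hne
    have hpos := abs_pos.2 hne
    have := hsmall (|P.real B - P.real B * P.real B| / 8) (by linarith)
    linarith
  rw [Filter.eventuallyConst_set']
  have : P.real B * (1 - P.real B) = 0 := by linarith
  rcases mul_eq_zero.1 this with h | h
  · exact Or.inl (ae_eq_empty.2 ((measureReal_eq_zero_iff).1 h))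
  · refine Or.inr (ae_eq_univ.2 ((measureReal_eq_zero_iff).1 ?_))
    rw [probReal_compl_eq_one_sub hB]
    linarith

end Vale.Agent.P147
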