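import Vale.Agent.P147.Defs

namespace Vale.Agent.P147

open Finset

/-- Average of a function after one step. -/
noncomputable def avg {d : ℕ} (w : Env d) (f : Site d → ℝ) (x : Site d) : ℝ :=
  ∑ e, w x e * f (x + stp e)

/-- The mass leaving the line of direction `V`. -/
noncomputable def outMass {d : ℕ} (T : Finset (Step d)) (w : Env d) (x : Site d) : ℝ :=
  ∑ e ∈ univ \ T, w x e

/-- The structural hypothesis that makes the envelope along `V` superharmonic. -/
structure Good {d : ℕ} (w : Env d) (V : Site d) (T : Finset (Step d))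
    (κ : Step d → Step d) (q : Step d → ℝ) : Prop where
  env : IsEnv w
  self : ∀ e ∈ T, stp e = V ∨ stp e = -V
  cls : ∀ e e', e ∉ T → e' ∉ T → κ e = κ e' →
    stp e' = stp e ∨ stp e' = stp e + V ∨ stp e' = stp e - V
  out_pos : ∀ x, 0 < outMass T w x
  ratio : ∀ x c, ∑ e ∈ (univ \ T).filter (fun e => κ e = c), w x e = outMass T w x * q c
  anchor_pos : ∀ x, ∃ δ : ℝ, 0 < δ ∧ ∀ J : ℕ, ∃ j ≥ J, δ ≤ outMass T w (x + j • V)
  anchor_neg : ∀ x, ∃ δ : ℝ, 0 < δ ∧ ∀ J : ℕ, ∃ j ≥ J, δ ≤ outMass T w (x + j • (-V))

theorem Good.neg {d : ℕ} {w : Env d} {V : Site d} {T : Finset (Step d)}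
    {κ : Step d → Step d} {q : Step d → ℝ} (h : Good w V T κ q) : Good w (-V) T κ q := by
  refine ⟨h.env, ?_, ?_, h.out_pos, h.ratio, h.anchor_neg, ?_⟩
  · intro e he
    rcases h.self e he with h1 | h1
    · exact Or.inr (by simp [h1])
    · exact Or.inl h1
  · intro e e' he he' hk
    rcases h.cls e e' he he' hk with h1 | h1 | h1
    · exact Or.inl h1
    · exact Or.inr (Or.inr (by rw [h1]; abel))
    · exact Or.inr (Or.inl (by rw [h1]; abel))
  · intro x
    simpa using h.anchor_pos x

/-- The infimum of `f` along the half line issued from `x` in direction `V`. -/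
noncomputable def env' {d : ℕ} (V : Site d) (f : Site d → ℝ) (x : Site d) : ℝ :=
  ⨅ j : ℕ, f (x + j • V)

section
variable {d : ℕ} {w : Env d} {V : Site d} {T : Finset (Step d)}
  {κ : Step d → Step d} {q : Step d → ℝ} {f : Site d → ℝ} {S : Set (Site d)}

theorem env'_le (hf0 : ∀ x, 0 ≤ f x) (x : Site d) (j : ℕ) : env' V f x ≤ f (x + j • V) :=
  ciInf_le ⟨0, by rintro _ ⟨k, rfl⟩; exact hf0 _⟩ j

theorem le_env' {x : Site d} {c : ℝ} (h : ∀ j : ℕ, c ≤ f (x + j • V)) : c ≤ env' V f x :=
  le_ciInf h

theorem env'_mono (hf0 : ∀ x, 0 ≤ f x) (x : Site d) (k : ℕ) :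
    env' V f x ≤ env' V f (x + k • V) := by
  refine le_env' fun j => ?_
  have h := env'_le (V := V) hf0 x (k + j)
  rwa [add_nsmul, ← add_assoc] at h

theorem env'_step_le (hf0 : ∀ x, 0 ≤ f x) (x : Site d) :
    env' V f x ≤ env' V f (x + V) := by
  simpa using env'_mono (V := V) hf0 x 1

theorem env'_self_le (hf0 : ∀ x, 0 ≤ f x) (x : Site d) : env' V f x ≤ f x := by
  simpa using env'_le (V := V) hf0 x 0

theorem class_sum_le (hg : Good w V T κ q) (hf0 : ∀ x, 0 ≤ f x) (x : Site d) {j : ℕ}
    (hj : 1 ≤ j) :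
    outMass T w (x + j • V) * (∑ e ∈ univ \ T, w x e * env' V f (x + stp e)) ≤
      outMass T w x *
        ∑ e ∈ univ \ T, w (x + j • V) e * env' V f (x + j • V + stp e) := by
  classical
  rw [← Finset.sum_fiberwise (univ \ T) κ, ← Finset.sum_fiberwise (univ \ T) κ,
    Finset.mul_sum, Finset.mul_sum]
  refine Finset.sum_le_sum fun c _ => ?_
  set y := x + j • V with hy
  set F := (univ \ T).filter (fun e => κ e = c) with hF
  have hx := hg.ratio x c
  have hyr := hg.ratio y c
  rw [← hF] at hx hyr
  have hw := hg.env.1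
  have hsy := hg.out_pos y
  have hsx := hg.out_pos x
  rcases eq_or_ne (q c) 0 with hq | hq
  · rw [hq, mul_zero] at hx hyr
    have zx : ∀ e ∈ F, w x e = 0 := (Finset.sum_eq_zero_iff_of_nonneg fun e _ => hw x e).1 hx
    have zy : ∀ e ∈ F, w y e = 0 := (Finset.sum_eq_zero_iff_of_nonneg fun e _ => hw y e).1 hyr
    rw [Finset.sum_eq_zero (s := F) (fun e he => by rw [zx e he, zero_mul]),
      Finset.sum_eq_zero (s := F) (fun e he => by rw [zy e he, zero_mul]), mul_zero, mul_zero]
  · have hqpos : 0 < q c := by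
      have hnn : 0 ≤ outMass T w x * q c := hx ▸ Finset.sum_nonneg fun e _ => hw x e
      exact lt_of_le_of_ne (nonneg_of_mul_nonneg_right hnn hsx) (Ne.symm hq)
    have key : (outMass T w y * q c) * ∑ e ∈ F, w x e * env' V f (x + stp e) ≤
        (outMass T w x * q c) * ∑ e ∈ F, w y e * env' V f (y + stp e) := by
      rw [← hx, ← hyr, Finset.sum_mul_sum, Finset.sum_mul_sum, Finset.sum_comm]
      refine Finset.sum_le_sum fun e he => Finset.sum_le_sum fun e' he' => ?_
      have hmono : env' V f (x + stp e) ≤ env' V f (y + stp e') := by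
        simp only [hF, Finset.mem_filter, Finset.mem_sdiff, Finset.mem_univ, true_and] at he he'
        obtain ⟨j', rfl⟩ : ∃ j', j = j' + 1 := ⟨j - 1, by omega⟩
        rcases hg.cls e e' he.1 he'.1 (by rw [he.2, he'.2]) with h1 | h1 | h1
        · have := env'_mono (V := V) hf0 (x + stp e) (j' + 1)
          rwa [show y + stp e' = x + stp e + (j' + 1) • V by rw [hy, h1]; abel]
        · have := env'_mono (V := V) hf0 (x + stp e) (j' + 2)
          rwa [show y + stp e' = x + stp e + (j' + 2) • V by
            rw [hy, h1, show j' + 2 = (j' + 1) + 1 from rfl, succ_nsmul _ (j' + 1)]; abel]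
        · have := env'_mono (V := V) hf0 (x + stp e) j'
          rwa [show y + stp e' = x + stp e + j' • V by
            rw [hy, h1, succ_nsmul]; abel]
      have := mul_le_mul_of_nonneg_left hmono (mul_nonneg (hw y e') (hw x e))
      linarith
    nlinarith

theorem env'_superharmonic (hg : Good w V T κ q) (hf0 : ∀ x, 0 ≤ f x) (hf1 : ∀ x, f x ≤ 1)
    (hSf : ∀ x ∈ S, f x = 1) (hsh : ∀ x ∉ S, avg w f x ≤ f x) (x : Site d) (hx : x ∉ S) :
    avg w (env' V f) x ≤ env' V f x := by
  classical
  have hw := hg.env.1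
  have hsum := hg.env.2
  by_contra hcon
  rw [not_le] at hcon
  set μ := env' V f x with hμ
  have hle : avg w (env' V f) x ≤ f x := le_trans
    (Finset.sum_le_sum fun e _ => mul_le_mul_of_nonneg_left (env'_self_le hf0 _) (hw x e))
    (hsh x hx)
  have hfx : μ < f x := lt_of_lt_of_le hcon hle
  have hplus : env' V f (x + V) ≤ μ := by
    by_contra h
    rw [not_le] at h
    have h2 : min (f x) (env' V f (x + V)) ≤ μ := by
      refine le_env' fun j => ?_
      rcases j with _ | j
      · simp
      · refine le_trans (min_le_right _ _) ?_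
        have := env'_le (V := V) hf0 (x + V) j
        rwa [show x + (j + 1) • V = x + V + j • V by rw [succ_nsmul]; abel]
    exact absurd h2 (not_le.2 (lt_min hfx h))
  have hminus : env' V f (x - V) ≤ μ := by
    have := env'_mono (V := V) hf0 (x - V) 1
    simpa using this
  set s := outMass T w x with hs
  have hspos := hg.out_pos x
  set P := ∑ e ∈ univ \ T, w x e * env' V f (x + stp e) with hP
  have hsT : ∑ e ∈ T, w x e = 1 - s := by
    have := Finset.sum_sdiff (Finset.subset_univ T) (f := w x)
    rw [hsum] at this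
    simp only [hs, outMass]
    linarith
  have hsplit : avg w (env' V f) x ≤ (1 - s) * μ + P := by
    rw [avg, ← Finset.sum_sdiff (Finset.subset_univ T), ← hP, ← hsT, Finset.sum_mul, add_comm]
    refine add_le_add (Finset.sum_le_sum fun e he => mul_le_mul_of_nonneg_left ?_ (hw x e)) le_rfl
    rcases hg.self e he with h1 | h1 <;> rw [h1]
    · exact hplus
    · rw [← sub_eq_add_neg]; exact hminus
  have hPs : s * μ < P := by nlinarith
  set η := P / s - μ with hη
  have hηpos : 0 < η := by
    have : μ < P / s := by rw [lt_div_iff₀ hspos]; linarith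
    linarith
  set δ := min η (f x - μ) with hδ
  have hδpos : 0 < δ := lt_min hηpos (by linarith)
  let r : ℕ → ℝ := fun j => δ - (f (x + j • V) - μ)
  have hr0 : r 0 ≤ 0 := by
    have : δ ≤ f x - μ := min_le_right _ _
    simp only [r, zero_nsmul, add_zero]
    linarith
  have hrδ : ∀ j, r j ≤ δ := fun j => by
    have := env'_le (V := V) hf0 x j
    simp only [r]
    linarith
  have hrS : ∀ j, x + j • V ∈ S → r j ≤ 0 := fun j hj => by
    have h1 : δ ≤ f x - μ := min_le_right _ _
    have := hSf _ hj
    have := hf1 x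
    simp only [r]
    linarith
  have hstep : ∀ (j : ℕ) (R' : ℝ), 0 ≤ R' → r j ≤ R' → r (j + 2) ≤ R' →
      r (j + 1) ≤ (1 - outMass T w (x + (j + 1) • V)) * R' := by
    intro j R' hR' hj hj2
    set y := x + (j + 1) • V with hy
    have hs1 : outMass T w y ≤ 1 := by
      rw [← hsum y]
      exact Finset.sum_le_sum_of_subset_of_nonneg (Finset.subset_univ _) fun e _ _ => hw y e
    by_cases hyS : y ∈ S
    · exact le_trans (hrS _ hyS) (mul_nonneg (by linarith) hR')
    have h1 := hsh y hyS
    have hyT : ∑ e ∈ T, w y e = 1 - outMass T w y := by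
      have := Finset.sum_sdiff (Finset.subset_univ T) (f := w y)
      rw [hsum] at this
      simp only [outMass]
      linarith
    rw [avg, ← Finset.sum_sdiff (Finset.subset_univ T)] at h1
    have hA : (1 - outMass T w y) * (μ + δ - R') ≤ ∑ e ∈ T, w y e * f (y + stp e) := by
      rw [← hyT, Finset.sum_mul]
      refine Finset.sum_le_sum fun e he => mul_le_mul_of_nonneg_left ?_ (hw y e)
      rcases hg.self e he with h2 | h2
      · rw [h2, show y + V = x + (j + 2) • V by
          rw [hy, show j + 2 = (j + 1) + 1 from rfl, succ_nsmul _ (j + 1)]; abel]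
        simp only [r] at hj2
        linarith
      · rw [h2, show y + -V = x + j • V by rw [hy, succ_nsmul]; abel]
        simp only [r] at hj
        linarith
    have hB : outMass T w y * (μ + δ) ≤ ∑ e ∈ univ \ T, w y e * f (y + stp e) := by
      have hc := class_sum_le (f := f) hg hf0 x (j := j + 1) (by omega)
      rw [← hy, ← hP, ← hs] at hc
      have hd : ∑ e ∈ univ \ T, w y e * env' V f (y + stp e) ≤
          ∑ e ∈ univ \ T, w y e * f (y + stp e) :=
        Finset.sum_le_sum fun e _ => mul_le_mul_of_nonneg_left (env'_self_le hf0 _) (hw y e)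
      have he : μ + δ ≤ P / s := by
        have := min_le_left η (f x - μ)
        linarith
      rw [le_div_iff₀ hspos] at he
      have := mul_le_mul_of_nonneg_left hd hspos.le
      have := mul_le_mul_of_nonneg_left he (hg.out_pos y).le
      exact le_of_mul_le_mul_left (by linarith) hspos
    simp only [r, ← hy]
    linarith
  set R := max 0 (⨆ j, r j) with hR
  have hrR : ∀ j, r j ≤ R := fun j => le_trans
    (le_ciSup ⟨δ, by rintro _ ⟨k, rfl⟩; exact hrδ k⟩ j) (le_max_right _ _)
  have hR0 : 0 ≤ R := le_max_left _ _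
  obtain ⟨δ0, hδ0, hanc⟩ := hg.anchor_pos x
  have hbound : ∀ j, r j ≤ max 0 ((1 - δ0) * R) := by
    intro j
    obtain ⟨J, hJ, hJδ⟩ := hanc (j + 1)
    obtain ⟨k, hk, hmax⟩ := Finset.exists_max_image (Finset.range (J + 1)) r ⟨0, by simp⟩
    refine le_trans (hmax j (by simp; omega)) ?_
    rcases k with _ | k
    · exact le_trans hr0 (le_max_left _ _)
    rw [Finset.mem_range] at hk
    by_cases hkJ : k + 1 = J
    · refine le_trans (hstep k R hR0 (hrR _) (hrR _)) (le_max_of_le_right ?_)
      exact mul_le_mul_of_nonneg_right (by rw [hkJ]; linarith) hR0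
    · by_contra hgt
      rw [not_le, max_lt_iff] at hgt
      have := hstep k (r (k + 1)) hgt.1.le (hmax k (by simp; omega))
        (hmax (k + 2) (by simp; omega))
      have := mul_pos (hg.out_pos (x + (k + 1) • V)) hgt.1
      nlinarith
  have hRle : R ≤ max 0 ((1 - δ0) * R) :=
    max_le (le_max_left _ _) (ciSup_le hbound)
  have hRzero : R = 0 := by
    rcases max_choice 0 ((1 - δ0) * R) with h | h <;> rw [h] at hRle
    · linarith
    · nlinarith
  have : μ + δ ≤ μ := le_env' fun j => by
    have := hrR j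
    simp only [r] at this
    linarith
  linarith

end

end Vale.Agent.P147
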