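import Vale.Agent.P147.Chain
import Vale.Agent.P147.Monotone

namespace Vale.Agent.P147

open MeasureTheory Set Filter Topology

variable {d : ℕ} [NeZero d]

/-- The half space `dot l y ≤ M`. -/
def below (l : Fin d → ℝ) (M : ℕ) : Set (Site d) := {y | dot l y ≤ M}

/-- The walk from `y` reaches `S`. -/
def hitEv (S : Set (Site d)) (y : Site d) : Set (ℕ → Step d) := {s | ∃ k, path y s k ∈ S}

/-- The walk from `y` reaches `S` by time `n`. -/
def hitBy (S : Set (Site d)) (y : Site d) (n : ℕ) : Set (ℕ → Step d) :=
  {s | ∃ k ≤ n, path y s k ∈ S}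

/-- The walk from `y` stays outside `S` from time `n` on. -/
def avoidFrom (S : Set (Site d)) (y : Site d) (n : ℕ) : Set (ℕ → Step d) :=
  {s | ∀ k ≥ n, path y s k ∉ S}

/-- The walk from `y` is eventually outside `S`. -/
def evAvoid (S : Set (Site d)) (y : Site d) : Set (ℕ → Step d) :=
  {s | ∃ n, s ∈ avoidFrom S y n}

/-- The escape event on step sequences. -/
def escEv (l : Fin d → ℝ) (y : Site d) : Set (ℕ → Step d) := path y ⁻¹' escape l

theorem measurableSet_pathMem (S : Set (Site d)) (y : Site d) (k : ℕ) :
    MeasurableSet {s : ℕ → Step d | path y s k ∈ S} :=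
  ((measurable_pi_apply k).comp (measurable_path y)) (to_countable S).measurableSet

theorem measurableSet_hitEv (S : Set (Site d)) (y : Site d) : MeasurableSet (hitEv S y) := by
  simp only [hitEv, ofPred_exists]
  exact MeasurableSet.iUnion fun k => measurableSet_pathMem S y k

theorem measurableSet_hitBy (S : Set (Site d)) (y : Site d) (n : ℕ) :
    MeasurableSet (hitBy S y n) := by
  have : hitBy S y n = ⋃ k ∈ Finset.range (n + 1), {s | path y s k ∈ S} := by
    ext s; simp [hitBy]
  rw [this]
  exact MeasurableSet.biUnion (Finset.range (n + 1)).countable_toSet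
    fun k _ => measurableSet_pathMem S y k

theorem measurableSet_avoidFrom (S : Set (Site d)) (y : Site d) (n : ℕ) :
    MeasurableSet (avoidFrom S y n) := by
  have : avoidFrom S y n = ⋂ k, ⋂ (_ : n ≤ k), {s | path y s k ∈ S}ᶜ := by
    ext s; simp [avoidFrom]
  rw [this]
  exact MeasurableSet.iInter fun k => MeasurableSet.iInter fun _ =>
    (measurableSet_pathMem S y k).compl

theorem measurableSet_evAvoid (S : Set (Site d)) (y : Site d) : MeasurableSet (evAvoid S y) := by
  simp only [evAvoid, ofPred_exists]
  exact MeasurableSet.iUnion fun n => measurableSet_avoidFrom S y n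

theorem escEv_eq (l : Fin d → ℝ) (y : Site d) :
    escEv l y = ⋂ M : ℕ, evAvoid (below l M) y := by
  ext s
  simp only [escEv, mem_preimage, escape, mem_ofPred_eq, mem_iInter, evAvoid, avoidFrom, below,
    not_le, ge_iff_le]
  rw [tendsto_atTop]
  constructor
  · intro h M
    obtain ⟨n, hn⟩ := eventually_atTop.1 (h ((M : ℝ) + 1))
    exact ⟨n, fun k hk => by linarith [hn k hk]⟩
  · intro h b
    obtain ⟨M, hM⟩ := exists_nat_ge b
    obtain ⟨n, hn⟩ := h M
    exact eventually_atTop.2 ⟨n, fun k hk => le_trans hM (hn k hk).le⟩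

theorem measurableSet_escEv (l : Fin d → ℝ) (y : Site d) : MeasurableSet (escEv l y) := by
  rw [escEv_eq]
  exact MeasurableSet.iInter fun M => measurableSet_evAvoid _ _

theorem cons_avoidFrom (S : Set (Site d)) (y : Site d) (e : Step d) (n : ℕ) :
    cons e ⁻¹' avoidFrom S y (n + 1) = avoidFrom S (y + stp e) n := by
  ext s
  simp only [mem_preimage, avoidFrom, mem_ofPred_eq]
  constructor
  · intro h k hk
    rw [← path_cons]
    exact h (k + 1) (by omega)
  · intro h k hk
    obtain ⟨j, rfl⟩ : ∃ j, k = j + 1 := ⟨k - 1, by omega⟩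
    rw [path_cons]
    exact h j (by omega)

theorem cons_evAvoid (S : Set (Site d)) (y : Site d) (e : Step d) :
    cons e ⁻¹' evAvoid S y = evAvoid S (y + stp e) := by
  ext s
  constructor
  · rintro ⟨n, hn⟩
    refine ⟨n, ?_⟩
    intro k hk
    rw [← path_cons]
    exact hn (k + 1) (by omega)
  · rintro ⟨n, hn⟩
    refine ⟨n + 1, ?_⟩
    rw [← mem_preimage (f := cons e), cons_avoidFrom]
    exact hn

theorem cons_hitEv (S : Set (Site d)) {y : Site d} (hy : y ∉ S) (e : Step d) :
    cons e ⁻¹' hitEv S y = hitEv S (y + stp e) := by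
  ext s
  simp only [mem_preimage, hitEv, mem_ofPred_eq]
  constructor
  · rintro ⟨k, hk⟩
    cases k with
    | zero => rw [path_zero] at hk; exact absurd hk hy
    | succ k => exact ⟨k, by rwa [path_cons] at hk⟩
  · rintro ⟨k, hk⟩
    exact ⟨k + 1, by rwa [path_cons]⟩

theorem cons_hitBy (S : Set (Site d)) {y : Site d} (hy : y ∉ S) (e : Step d) (n : ℕ) :
    cons e ⁻¹' hitBy S y (n + 1) = hitBy S (y + stp e) n := by
  ext s
  simp only [mem_preimage, hitBy, mem_ofPred_eq]
  constructor
  · rintro ⟨k, hk, hs⟩
    cases k with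
    | zero => rw [path_zero] at hs; exact absurd hs hy
    | succ k => exact ⟨k, by omega, by rwa [path_cons] at hs⟩
  · rintro ⟨k, hk, hs⟩
    exact ⟨k + 1, by omega, by rwa [path_cons]⟩

theorem cons_escEv (l : Fin d → ℝ) (y : Site d) (e : Step d) :
    cons e ⁻¹' escEv l y = escEv l (y + stp e) := by
  rw [escEv_eq, escEv_eq, preimage_iInter]
  exact iInter_congr fun M => cons_evAvoid _ _ _

theorem dot_add_nsmul (l : Fin d → ℝ) (x V : Site d) (j : ℕ) :
    dot l (x + j • V) = dot l x + j * dot l V := by
  simp only [dot, Pi.add_apply, Pi.mul_apply, Pi.natCast_apply, nsmul_eq_mul, Finset.mul_sum,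
    ← Finset.sum_add_distrib]
  refine Finset.sum_congr rfl fun i _ => ?_
  push_cast
  ring

variable {w : Env d} {V : Site d} {T : Finset (Step d)} {κ : Step d → Step d} {q : Step d → ℝ}
  {l : Fin d → ℝ}

theorem hit_mono (hg : Good w V T κ q) (hl : 0 ≤ dot l V) (M : ℕ) (y : Site d) (j : ℕ) :
    prob w (y + j • V) (hitEv (below l M) (y + j • V)) ≤ prob w y (hitEv (below l M) y) := by
  set S := below l M with hS
  set f : Site d → ℝ := fun z => prob w z (hitEv S z) with hf
  have hone : ∀ z ∈ S, f z = 1 := by
    intro z hz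
    have : hitEv S z = univ := eq_univ_of_forall fun s => ⟨0, by rwa [path_zero]⟩
    simp [hf, prob, this]
  have hsh : ∀ z ∉ S, avg w f z ≤ f z := by
    intro z hz
    refine le_of_eq ?_
    simp only [hf, avg]
    rw [prob_decomp hg.env z (measurableSet_hitEv S z)]
    simp only [cons_hitEv S hz]
  have h0 : ∀ z, 0 ≤ f z := fun z => prob_nonneg _ _ _
  have h1 : ∀ z, f z ≤ 1 := fun z => prob_le_one' _ _ _
  have hm1 : ∀ z ∈ S, env' (-V) f z = 1 := by
    intro z hz
    refine le_antisymm (le_trans (env'_self_le h0 z) (h1 z)) (le_env' fun k => ?_)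
    refine (hone _ ?_).ge
    simp only [hS, below, mem_ofPred_eq] at hz ⊢
    rw [dot_add_nsmul, show dot l (-V) = -dot l V by simp [dot, Finset.sum_neg_distrib]]
    nlinarith [Nat.cast_nonneg (α := ℝ) k]
  have key : ∀ n z, prob w z (hitBy S z n) ≤ env' (-V) f z := by
    intro n
    induction n with
    | zero =>
      intro z
      by_cases hz : z ∈ S
      · rw [hm1 z hz]; exact prob_le_one' _ _ _
      · have : hitBy S z 0 = ∅ := by
          ext s; simp [hitBy, path_zero, hz]
        rw [this]
        simp only [prob, measureReal_empty]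
        exact le_env' fun k => h0 _
    | succ n ih =>
      intro z
      by_cases hz : z ∈ S
      · rw [hm1 z hz]; exact prob_le_one' _ _ _
      · rw [prob_decomp hg.env z (measurableSet_hitBy S z _)]
        refine le_trans ?_ (env'_superharmonic hg.neg h0 h1 hone hsh z hz)
        refine Finset.sum_le_sum fun e _ => mul_le_mul_of_nonneg_left ?_ (hg.env.1 z e)
        rw [cons_hitBy S hz]
        exact ih _
  have hlim : ∀ z, f z ≤ env' (-V) f z := by
    intro z
    have hu : hitEv S z = ⋃ n, hitBy S z n := by
      ext s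
      simp only [hitEv, hitBy, mem_iUnion, mem_ofPred_eq]
      exact ⟨fun ⟨k, hk⟩ => ⟨k, k, le_rfl, hk⟩, fun ⟨_, k, _, hk⟩ => ⟨k, hk⟩⟩
    have hmono : Monotone (hitBy S z) := fun a b hab s ⟨k, hk, hs⟩ => ⟨k, hk.trans hab, hs⟩
    have ht := (ENNReal.tendsto_toReal (measure_ne_top (W w z) (⋃ n, hitBy S z n))).comp
      (tendsto_measure_iUnion_atTop (μ := W w z) hmono)
    simp only [hf, prob, measureReal_def, hu]
    exact le_of_tendsto' ht fun n => key n z
  refine le_trans (hlim _) ?_
  have := env'_le (V := -V) h0 (y + j • V) j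
  rwa [show y + j • V + j • -V = y by rw [neg_nsmul]; abel] at this

theorem avoid_mono (hg : Good w V T κ q) (hl : 0 ≤ dot l V) (M : ℕ) (y : Site d) (j : ℕ) :
    prob w y (avoidFrom (below l M) y 0) ≤
      prob w (y + j • V) (avoidFrom (below l M) (y + j • V) 0) := by
  have hc : ∀ z, avoidFrom (below l M) z 0 = (hitEv (below l M) z)ᶜ := by
    intro z; ext s; simp [avoidFrom, hitEv]
  have hp : ∀ z, prob w z (avoidFrom (below l M) z 0) =
      1 - prob w z (hitEv (below l M) z) := fun z => by
    rw [hc, prob, probReal_compl_eq_one_sub (measurableSet_hitEv _ _)]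
    rfl
  rw [hp, hp]
  linarith [hit_mono hg hl M y j]

theorem evAvoid_mono (hg : Good w V T κ q) (hl : 0 ≤ dot l V) (M : ℕ) (y : Site d) :
    prob w y (evAvoid (below l M) y) ≤ prob w (y + V) (evAvoid (below l M) (y + V)) := by
  set S := below l M with hS
  set f : Site d → ℝ := fun z => prob w z (evAvoid S z) with hf
  have h0 : ∀ z, 0 ≤ f z := fun z => prob_nonneg _ _ _
  have h1 : ∀ z, f z ≤ 1 := fun z => prob_le_one' _ _ _
  have hsh : ∀ z ∉ (∅ : Set (Site d)), avg w f z ≤ f z := by
    intro z _
    refine le_of_eq ?_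
    simp only [hf, avg]
    rw [prob_decomp hg.env z (measurableSet_evAvoid S z)]
    simp only [cons_evAvoid]
  have key : ∀ n z, prob w z (avoidFrom S z n) ≤ env' V f z := by
    intro n
    induction n with
    | zero =>
      intro z
      refine le_env' fun k => le_trans (avoid_mono hg hl M z k) ?_
      exact measureReal_mono fun s hs => ⟨0, hs⟩
    | succ n ih =>
      intro z
      rw [prob_decomp hg.env z (measurableSet_avoidFrom S z _)]
      refine le_trans ?_ (env'_superharmonic (S := ∅) hg h0 h1 (by simp) hsh z (by simp))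
      refine Finset.sum_le_sum fun e _ => mul_le_mul_of_nonneg_left ?_ (hg.env.1 z e)
      rw [cons_avoidFrom]
      exact ih _
  have hu : evAvoid S y = ⋃ n, avoidFrom S y n := by
    ext s; simp [evAvoid]
  have hmono : Monotone (avoidFrom S y) := fun a b hab s hs k hk => hs k (hab.trans hk)
  have ht := (ENNReal.tendsto_toReal (measure_ne_top (W w y) (⋃ n, avoidFrom S y n))).comp
    (tendsto_measure_iUnion_atTop (μ := W w y) hmono)
  have hle : f y ≤ env' V f y := by
    simp only [hf, prob, measureReal_def, hu]
    exact le_of_tendsto' ht fun n => key n y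
  refine le_trans hle ?_
  simpa using env'_le (V := V) h0 y 1

theorem escape_mono (hg : Good w V T κ q) (hl : 0 ≤ dot l V) (y : Site d) :
    prob w y (escEv l y) ≤ prob w (y + V) (escEv l (y + V)) := by
  rw [escEv_eq l (y + V)]
  have hanti : Antitone fun M : ℕ => evAvoid (below l M) (y + V) := by
    intro a b hab s ⟨n, hn⟩
    exact ⟨n, fun k hk hmem => hn k hk (show dot l _ ≤ (b : ℝ) from le_trans (show dot l _ ≤ (a : ℝ) from hmem) (Nat.cast_le.2 hab))⟩
  have ht := (ENNReal.tendsto_toReal (measure_ne_top (W w (y + V))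
      (⋂ M, evAvoid (below l M) (y + V)))).comp
    (tendsto_measure_iInter_atTop (μ := W w (y + V))
      (fun M => (measurableSet_evAvoid _ _).nullMeasurableSet) hanti ⟨0, measure_ne_top _ _⟩)
  refine ge_of_tendsto' ht fun M => le_trans ?_ (evAvoid_mono hg hl M y)
  rw [escEv_eq l y]
  exact measureReal_mono (iInter_subset _ M)

/-- If the quenched escape probability is the same constant at every site, it is `0` or `1`. -/
theorem zero_or_one_of_const (hw : IsEnv w) {p : ℝ} (hp : ∀ y, prob w y (escEv l y) = p) :
    p = 0 ∨ p = 1 := by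
  have hp0 : 0 ≤ p := hp 0 ▸ prob_nonneg _ _ _
  have key : ∀ n t y, prob w y (cyl n t ∩ escEv l y) = p * prob w y (cyl n t) := by
    intro n
    induction n with
    | zero =>
      intro t y
      have : (cyl 0 t : Set (ℕ → Step d)) = univ := by ext; simp [cyl]
      rw [this, univ_inter, hp, prob, measureReal_def, measure_univ]
      simp
    | succ n ih =>
      intro t y
      rw [prob_decomp hw y ((measurableSet_cyl _ _).inter (measurableSet_escEv _ _)),
        prob_decomp hw y (measurableSet_cyl (n + 1) t), Finset.mul_sum]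
      refine Finset.sum_congr rfl fun e _ => ?_
      by_cases he : e = t 0
      · have hc : cons e ⁻¹' cyl (n + 1) t = cyl n fun k => t (k + 1) := by
          ext s
          simp only [mem_preimage, cyl, mem_ofPred_eq]
          constructor
          · exact fun h k hk => h (k + 1) (by omega)
          · intro h k hk
            cases k with
            | zero => exact he
            | succ k => exact h k (by omega)
        rw [preimage_inter, hc, cons_escEv, ih]
        ring
      · have hc : cons e ⁻¹' cyl (n + 1) t = ∅ :=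
          eq_empty_iff_forall_notMem.2 fun s hs => he (hs 0 (by omega))
        rw [preimage_inter, hc, empty_inter]
        simp [prob]
  have heq : (W w 0).restrict (escEv l 0) = ENNReal.ofReal p • W w 0 := by
    refine ext_cyls fun n t => ?_
    rw [Measure.restrict_apply (measurableSet_cyl n t), Measure.smul_apply, smul_eq_mul,
      ← ofReal_measureReal, ← ofReal_measureReal (s := cyl n t), ← ENNReal.ofReal_mul hp0]
    exact congrArg ENNReal.ofReal (key n t 0)
  have := congrArg (fun m : Measure (ℕ → Step d) => (m (escEv l 0)).toReal) heq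
  simp only [Measure.restrict_apply (measurableSet_escEv l 0), inter_self, Measure.smul_apply,
    smul_eq_mul, ENNReal.toReal_mul, ENNReal.toReal_ofReal hp0] at this
  have h0 : (W w 0 (escEv l 0)).toReal = p := hp 0
  rw [h0] at this
  have : p * (1 - p) = 0 := by linarith
  rcases mul_eq_zero.1 this with h | h
  · exact Or.inl h
  · exact Or.inr (by linarith)

end Vale.Agent.P147
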