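import Vale.Agent.P147.Escape
import Vale.Agent.P147.Ergodic

namespace Vale.Agent.P147

open MeasureTheory Filter Topology Set

variable {d : ℕ}

/-- The class conditions on a single row. -/
def RowCond (T : Finset (Step d)) (κ : Step d → Step d) (q : Step d → ℝ)
    (p : Step d → ℝ) : Prop :=
  (∀ e, 0 ≤ p e) ∧ ∑ e, p e = 1 ∧ 0 < ∑ e ∈ Finset.univ \ T, p e ∧
    ∀ c, ∑ e ∈ (Finset.univ \ T).filter (fun e => κ e = c), p e =
      (∑ e ∈ Finset.univ \ T, p e) * q c

theorem ae_all_rows (μ : Measure (Step d → ℝ)) [IsProbabilityMeasure μ]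
    {A : (Step d → ℝ) → Prop} (h : ∀ᵐ p ∂μ, A p) :
    ∀ᵐ w ∂(Measure.infinitePi fun _ : Site d => μ), ∀ y, A (w y) :=
  ae_all_iff.2 fun y =>
    (measurePreserving_eval_infinitePi (fun _ : Site d => μ) y).quasiMeasurePreserving.ae h

theorem exists_threshold {α : Type*} [MeasurableSpace α] (μ : Measure α) [IsProbabilityMeasure μ]
    {s : α → ℝ} (hs : ∀ᵐ p ∂μ, 0 < s p) : ∃ δ : ℝ, 0 < δ ∧ 0 < μ {p | δ ≤ s p} := by
  by_contra h
  push Not at h
  have h' : ∀ n : ℕ, ∀ᵐ p ∂μ, s p < 1 / ((n : ℝ) + 1) := fun n => by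
    rw [ae_iff]
    simpa only [not_lt] using nonpos_iff_eq_zero.1 (h _ Nat.one_div_pos_of_nat)
  obtain ⟨p, hp, hpn⟩ := (hs.and (ae_all_iff.2 h')).exists
  obtain ⟨n, hn⟩ := exists_nat_one_div_lt hp
  linarith [hpn n]

theorem ae_anchor (μ : Measure (Step d → ℝ)) [IsProbabilityMeasure μ] {s : (Step d → ℝ) → ℝ}
    (hsm : Measurable s) (hs : ∀ᵐ p ∂μ, 0 < s p) {V : Site d} (hV : V ≠ 0) :
    ∀ᵐ w ∂(Measure.infinitePi fun _ : Site d => μ),
      ∀ x, ∃ δ : ℝ, 0 < δ ∧ ∀ J : ℕ, ∃ j ≥ J, δ ≤ s (w (x + j • V)) := by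
  classical
  obtain ⟨δ, hδ, hpos⟩ := exists_threshold μ hs
  have hkey : ∀ x : Site d, ∀ J : ℕ, ∀ᵐ w ∂(Measure.infinitePi fun _ : Site d => μ),
      ∃ j ≥ J, δ ≤ s (w (x + j • V)) := by
    intro x J
    rw [ae_iff]
    set A := {p : Step d → ℝ | s p < δ} with hA
    have hAm : MeasurableSet A := measurableSet_lt hsm measurable_const
    have hA1 : μ A < 1 := by
      have hc : {p | δ ≤ s p} = Aᶜ := by ext p; simp [hA]
      rw [hc, prob_compl_eq_one_sub hAm] at hpos
      exact tsub_pos_iff_lt.1 hpos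
    have hle : ∀ N : ℕ, (Measure.infinitePi fun _ : Site d => μ)
        {w | ¬ ∃ j ≥ J, δ ≤ s (w (x + j • V))} ≤ μ A ^ N := by
      intro N
      let F := (Finset.range N).image fun i => x + (J + i) • V
      have hsub : {w : Env d | ¬ ∃ j ≥ J, δ ≤ s (w (x + j • V))} ⊆
          Set.pi (F : Set (Site d)) (fun _ => A) := by
        intro w hw y hy
        simp only [F, Finset.coe_image, Set.mem_image] at hy
        obtain ⟨i, -, rfl⟩ := hy
        by_contra hn
        exact hw ⟨J + i, Nat.le_add_right _ _, not_lt.1 hn⟩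
      refine le_trans (measure_mono hsub) (le_of_eq ?_)
      rw [Measure.infinitePi_pi _ fun _ _ => hAm, Finset.prod_const,
        Finset.card_image_of_injective _ fun a b h =>
          Nat.add_left_cancel (nsmul_ne hV (add_left_cancel h)), Finset.card_range]
    exact le_antisymm (ge_of_tendsto' (ENNReal.tendsto_pow_atTop_nhds_zero_of_lt_one hA1) hle)
      zero_le
  filter_upwards [ae_all_iff.2 fun x => ae_all_iff.2 (hkey x)] with w hw x
  exact ⟨δ, hδ, hw x⟩

theorem ae_good (μ : Measure (Step d → ℝ)) [IsProbabilityMeasure μ] {V : Site d} (hV : V ≠ 0)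
    {T : Finset (Step d)} {κ : Step d → Step d} {q : Step d → ℝ}
    (hT : ∀ e ∈ T, stp e = V ∨ stp e = -V)
    (hκ : ∀ e e', e ∉ T → e' ∉ T → κ e = κ e' →
      stp e' = stp e ∨ stp e' = stp e + V ∨ stp e' = stp e - V)
    (hrow : ∀ᵐ p ∂μ, RowCond T κ q p) :
    ∀ᵐ w ∂(Measure.infinitePi fun _ : Site d => μ), Good w V T κ q := by
  have hs : ∀ᵐ p ∂μ, 0 < ∑ e ∈ Finset.univ \ T, p e := hrow.mono fun p hp => hp.2.2.1
  have hsm : Measurable fun p : Step d → ℝ => ∑ e ∈ Finset.univ \ T, p e :=
    Finset.measurable_sum _ fun e _ => measurable_pi_apply e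
  filter_upwards [ae_all_rows μ hrow, ae_anchor μ hsm hs hV,
    ae_anchor μ hsm hs (neg_ne_zero.2 hV)] with w hw h1 h2
  exact ⟨⟨fun x => (hw x).1, fun x => (hw x).2.1⟩, hT, hκ, fun x => (hw x).2.2.1,
    fun x => (hw x).2.2.2, h1, h2⟩

variable [NeZero d]

/-- Quenched escape probability from the origin, as a function of the environment. -/
noncomputable def hEsc (l : Fin d → ℝ) (w : Env d) : ℝ := prob w 0 (escEv l 0)

theorem measurable_hEsc (l : Fin d → ℝ) : Measurable (hEsc l : Env d → ℝ) :=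
  ENNReal.measurable_toReal.comp (measurable_W 0 (measurableSet_escEv l 0))

theorem escEv_shift (l : Fin d → ℝ) (y : Site d) : escEv l y = escEv l 0 := by
  ext s
  have h : (fun n => dot l (path y s n)) = fun n => dot l y + dot l (path 0 s n) := by
    funext n
    simp only [dot, path, Pi.add_apply, Pi.zero_apply, zero_add, ← Finset.sum_add_distrib]
    refine Finset.sum_congr rfl fun i _ => ?_
    push_cast
    ring
  simp only [escEv, mem_preimage, escape, mem_ofPred_eq, h]
  constructor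
  · intro h'
    simpa [add_assoc] using tendsto_atTop_add_const_left atTop (-dot l y) h'
  · exact tendsto_atTop_add_const_left atTop (dot l y)

theorem prob_escEv (l : Fin d → ℝ) (w : Env d) (y : Site d) :
    prob w y (escEv l y) = hEsc l (shiftEnv y w) := by
  rw [hEsc, prob, prob, W_shift w y, escEv_shift l y]

theorem annealed_zero_one_aux (μ : Measure (Step d → ℝ)) [IsProbabilityMeasure μ] {V : Site d}
    (hV : V ≠ 0) (l : Fin d → ℝ) (hl : 0 ≤ dot l V)
    {T : Finset (Step d)} {κ : Step d → Step d} {q : Step d → ℝ}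
    (hgood : ∀ᵐ w ∂(Measure.infinitePi fun _ : Site d => μ), Good w V T κ q)
    {Q : Env d → Site d → Measure (ℕ → Site d)} (hQ : IsQuenchedLaw Q) :
    annealedEscape Q μ l = 0 ∨ annealedEscape Q μ l = 1 := by
  set P := Measure.infinitePi fun _ : Site d => μ with hP
  have hτ : MeasurePreserving (shiftEnv V) P P := measurePreserving_shiftEnv μ V
  have hle : hEsc l ≤ᵐ[P] hEsc l ∘ shiftEnv V := by
    filter_upwards [hgood] with w hg
    have h := escape_mono hg hl (0 : Site d)
    rw [zero_add, prob_escEv l w V] at h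
    exact h
  have hm := measurable_hEsc (d := d) l
  have hint : Integrable (hEsc l) P :=
    Integrable.of_bound hm.aestronglyMeasurable 1 (Eventually.of_forall fun w => by
      rw [Real.norm_eq_abs, hEsc, abs_of_nonneg (prob_nonneg _ _ _)]
      exact prob_le_one' _ _ _)
  have hint' : Integrable (hEsc l ∘ shiftEnv V) P := hτ.integrable_comp_of_integrable hint
  have heq : hEsc l =ᵐ[P] hEsc l ∘ shiftEnv V := by
    refine (integral_eq_iff_of_ae_le hint hint' hle).1 ?_
    have h := integral_map (μ := P) (f := hEsc l) hτ.measurable.aemeasurable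
      hm.aestronglyMeasurable
    rw [hτ.map_eq] at h
    exact h
  obtain ⟨p, hp⟩ := (ergodic_shiftEnv μ hV).ae_eq_const_of_ae_eq_comp₀ hm.nullMeasurable heq.symm
  have hall : ∀ᵐ w ∂P, ∀ y, prob w y (escEv l y) = p := by
    refine ae_all_iff.2 fun y => ?_
    filter_upwards [(measurePreserving_shiftEnv μ y).quasiMeasurePreserving.ae hp] with w hw
    rw [prob_escEv]
    exact hw
  obtain ⟨w0, hg0, hw0⟩ := (hgood.and hall).exists
  have hval : ∀ᵐ w ∂P, Q w 0 (escape l) = ENNReal.ofReal p := by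
    filter_upwards [hgood, hall] with w hg hw
    have hmeas : MeasurableSet (escape l : Set (ℕ → Site d)) :=
      (measurableSet_tendsto_atTop_escape l)
    rw [quenchedLaw_unique hQ hg.env, Q0, Measure.map_apply (measurable_path 0) hmeas,
      ← hw 0, prob, measureReal_def, ENNReal.ofReal_toReal (measure_ne_top _ _)]
    rfl
  rw [annealedEscape, lintegral_congr_ae hval, lintegral_const, measure_univ, mul_one]
  rcases zero_or_one_of_const hg0.env hw0 with h | h <;> simp [h]
where
  measurableSet_tendsto_atTop_escape (l : Fin d → ℝ) :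
      MeasurableSet (escape l : Set (ℕ → Site d)) := by
    have : escape l = ⋂ M : ℕ, ⋃ n : ℕ, ⋂ k, ⋂ (_ : n ≤ k),
        {X : ℕ → Site d | (M : ℝ) ≤ dot l (X k)} := by
      ext X
      simp only [escape, mem_ofPred_eq, mem_iInter, mem_iUnion, tendsto_atTop]
      constructor
      · intro h M
        exact eventually_atTop.1 (h M)
      · intro h b
        obtain ⟨M, hM⟩ := exists_nat_ge b
        obtain ⟨n, hn⟩ := h M
        exact eventually_atTop.2 ⟨n, fun k hk => le_trans hM (hn k hk)⟩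
    rw [this]
    refine MeasurableSet.iInter fun M => MeasurableSet.iUnion fun n =>
      MeasurableSet.iInter fun k => MeasurableSet.iInter fun _ => ?_
    exact (measurable_pi_apply (X := fun _ : ℕ => Site d) k)
      (to_countable {z : Site d | (M : ℝ) ≤ dot l z}).measurableSet

theorem annealed_zero_one (μ : Measure (Step d → ℝ)) [IsProbabilityMeasure μ] {V : Site d}
    (hV : V ≠ 0) (l : Fin d → ℝ) {T : Finset (Step d)} {κ : Step d → Step d} {q : Step d → ℝ}
    (hT : ∀ e ∈ T, stp e = V ∨ stp e = -V)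
    (hκ : ∀ e e', e ∉ T → e' ∉ T → κ e = κ e' →
      stp e' = stp e ∨ stp e' = stp e + V ∨ stp e' = stp e - V)
    (hrow : ∀ᵐ p ∂μ, RowCond T κ q p)
    {Q : Env d → Site d → Measure (ℕ → Site d)} (hQ : IsQuenchedLaw Q) :
    annealedEscape Q μ l = 0 ∨ annealedEscape Q μ l = 1 := by
  have hg := ae_good μ hV hT hκ hrow
  rcases le_total 0 (dot l V) with h | h
  · exact annealed_zero_one_aux μ hV l h hg hQ
  · refine annealed_zero_one_aux μ (neg_ne_zero.2 hV) l ?_ (hg.mono fun w hw => hw.neg) hQ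
    simp only [dot, Pi.neg_apply, Int.cast_neg, mul_neg, Finset.sum_neg_distrib, neg_nonneg] at h ⊢
    linarith

end Vale.Agent.P147
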