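import Vale.Agent.P147.Defs

namespace Vale.Agent.P147

open MeasureTheory Set

variable {d : ℕ}

/-- An enumeration of the steps. -/
noncomputable def stepEquiv (d : ℕ) : Fin (Fintype.card (Step d)) ≃ Step d :=
  (Fintype.equivFin (Step d)).symm

/-- A row as a sequence. -/
noncomputable def rowSeq (p : Step d → ℝ) (i : ℕ) : ℝ :=
  if h : i < Fintype.card (Step d) then p (stepEquiv d ⟨i, h⟩) else 0

/-- Partial sums of a row. -/
noncomputable def cum (p : Step d → ℝ) (j : ℕ) : ℝ := ∑ i ∈ Finset.range j, rowSeq p i

/-- The index of the interval that contains `u`. -/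
noncomputable def idx (pu : (Step d → ℝ) × ℝ) : ℕ :=
  ∑ j ∈ Finset.range (Fintype.card (Step d)), if cum pu.1 (j + 1) ≤ pu.2 then 1 else 0

/-- The step with a given index. -/
noncomputable def pick [NeZero d] (k : ℕ) : Step d :=
  if h : k < Fintype.card (Step d) then stepEquiv d ⟨k, h⟩ else (0, true)

/-- Inverse distribution function of a row. -/
noncomputable def sel [NeZero d] (pu : (Step d → ℝ) × ℝ) : Step d := pick (idx pu)

theorem measurable_rowSeq (i : ℕ) : Measurable fun p : Step d → ℝ => rowSeq p i := by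
  unfold rowSeq
  split_ifs with h
  · exact measurable_pi_apply _
  · exact measurable_const

theorem measurable_cum (j : ℕ) : Measurable fun p : Step d → ℝ => cum p j :=
  Finset.measurable_sum _ fun i _ => measurable_rowSeq i

theorem measurable_sel [NeZero d] : Measurable (sel : (Step d → ℝ) × ℝ → Step d) := by
  refine measurable_from_top.comp ?_
  refine Finset.measurable_sum _ fun j _ => Measurable.ite ?_ measurable_const measurable_const
  exact measurableSet_le ((measurable_cum _).comp measurable_fst) measurable_snd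

theorem cum_mono {p : Step d → ℝ} (h0 : ∀ e, 0 ≤ p e) : Monotone (cum p) := by
  intro a b hab
  refine Finset.sum_le_sum_of_subset_of_nonneg (Finset.range_subset_range.2 hab) ?_
  intro i _ _
  unfold rowSeq
  split_ifs with h
  · exact h0 _
  · exact le_rfl

theorem cum_card (p : Step d → ℝ) : cum p (Fintype.card (Step d)) = ∑ e, p e := by
  rw [cum, ← Equiv.sum_comp (stepEquiv d) p, ← Fin.sum_univ_eq_sum_range]
  refine Finset.sum_congr rfl fun i _ => ?_
  rw [rowSeq, dif_pos i.2]

/-- The uniform law on `[0, 1)`. -/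
noncomputable def unif : Measure ℝ := volume.restrict (Ico (0 : ℝ) 1)

instance : IsProbabilityMeasure unif := by
  constructor
  simp [unif, Real.volume_Ico]

theorem unif_sel [NeZero d] {p : Step d → ℝ} (h0 : ∀ e, 0 ≤ p e) (h1 : ∑ e, p e = 1)
    (e : Step d) : unif {u | sel (p, u) = e} = ENNReal.ofReal (p e) := by
  set N := Fintype.card (Step d) with hN
  obtain ⟨k, rfl⟩ := (stepEquiv d).surjective e
  obtain ⟨j, hj⟩ := k
  have hmeas : MeasurableSet {u : ℝ | sel (p, u) = stepEquiv d ⟨j, hj⟩} :=
    (measurable_sel.comp measurable_prodMk_left) (measurableSet_singleton _)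
  have hmono := cum_mono h0
  have hidx : ∀ u : ℝ, ∀ i : ℕ, i < N → cum p i ≤ u → u < cum p (i + 1) →
      idx (p, u) = i := by
    intro u i hi hlo hhi
    have : ((Finset.range N).filter fun m => cum p (m + 1) ≤ u) = Finset.range i := by
      ext m
      simp only [Finset.mem_filter, Finset.mem_range]
      constructor
      · rintro ⟨_, hm⟩
        by_contra hmi
        have := hmono (show i + 1 ≤ m + 1 by omega)
        linarith
      · intro hm
        exact ⟨by omega, le_trans (hmono (by omega)) hlo⟩
    simp only [idx, Finset.sum_boole, ← hN, this, Finset.card_range, Nat.cast_id]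
  have hN1 : cum p N = 1 := by rw [hN, cum_card, h1]
  have hexists : ∀ u : ℝ, 0 ≤ u → u < 1 → ∃ i < N, cum p i ≤ u ∧ u < cum p (i + 1) := by
    intro u hu0 hu1
    have hex : ∃ i, u < cum p (i + 1) := ⟨N - 1, by
      rw [Nat.sub_add_cancel (Fintype.card_pos_iff.2 ⟨((0 : Fin d), true)⟩), hN1]; exact hu1⟩
    refine ⟨Nat.find hex, ?_, ?_, Nat.find_spec hex⟩
    · have : Nat.find hex ≤ N - 1 := Nat.find_min' hex (by
        rw [Nat.sub_add_cancel (Fintype.card_pos_iff.2 ⟨((0 : Fin d), true)⟩), hN1]; exact hu1)
      have : 0 < N := Fintype.card_pos_iff.2 ⟨((0 : Fin d), true)⟩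
      omega
    · rcases h : Nat.find hex with _ | i
      · simpa [cum] using hu0
      · exact not_lt.1 (Nat.find_min hex (show i < Nat.find hex by omega))
  have hset : {u : ℝ | sel (p, u) = stepEquiv d ⟨j, hj⟩} ∩ Ico 0 1 =
      Ico (cum p j) (cum p (j + 1)) := by
    ext u
    constructor
    · rintro ⟨hu, hu0, hu1⟩
      obtain ⟨i, hi, hlo, hhi⟩ := hexists u hu0 hu1
      have hu' : pick (idx (p, u)) = stepEquiv d ⟨j, hj⟩ := hu
      rw [hidx u i hi hlo hhi, pick, dif_pos hi] at hu'
      obtain rfl : i = j := by simpa using (stepEquiv d).injective hu'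
      exact ⟨hlo, hhi⟩
    · rintro ⟨hlo, hhi⟩
      refine ⟨?_, le_trans (by simpa [cum] using hmono (Nat.zero_le j)) hlo, ?_⟩
      · change pick (idx (p, u)) = _
        rw [hidx u j hj hlo hhi, pick, dif_pos hj]
      · have := hmono (show j + 1 ≤ N by omega)
        linarith
  rw [unif, Measure.restrict_apply hmeas, hset, Real.volume_Ico]
  congr 1
  rw [cum, cum, Finset.sum_range_succ, add_sub_cancel_left, rowSeq, dif_pos hj]

end Vale.Agent.P147
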